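import Mathlib
import Vale.Agent.Lib.P057.Defs
import Vale.Agent.Lib.P057.Main

namespace Vale.Agent.Results.P057.DyadicCriterion

open Vale.Agent.Lib.P057

/-- For every `k ≥ 3`: every set of positive integers with divergent reciprocal sum contains a
`k`-term arithmetic progression if and only if the series `∑_j r_k(2^j) / 2^j` converges. -/
theorem result (k : ℕ) (hk : 3 ≤ k) :
    (∀ A : Set ℕ, (∀ a ∈ A, 0 < a) → ¬ Summable (fun a : A => (1 : ℝ) / (a : ℕ)) → HasAP k A)
      ↔ Summable (fun j : ℕ => (apFreeMax k (2 ^ j) : ℝ) / 2 ^ j) :=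
  erdos_iff_dyadic k hk

end Vale.Agent.Results.P057.DyadicCriterion
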